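import Vale.Agent.Lib.P090.Main

/-- There is a uniformly discrete metric space whose Lipschitz-free space fails the bounded
approximation property. -/
theorem Vale.Agent.Results.P090.NoBAP.result :
    ∃ (M : Type) (_ : MetricSpace M) (o : M),
      (∃ c : ℝ, 0 < c ∧ ∀ x y : M, x ≠ y → c ≤ dist x y) ∧
        ¬ P090.HasBAP (P090.FreeSpace M o) :=
  P090.main_theorem
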